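import Vale.Agent.N061.Main

/-! # P061: thin tree packings, fractional form -/

namespace Vale.Agent.Results.P061.A0Packing

open Finset Vale.Agent.P061Z

/-- With `C ≤ 10 ^ 94`: (1) `(1 / 2 - o(1)) k` disjoint thin spanning trees; the union of `j`
consecutive ones is `((2 + ε) j + C / ε ^ 12) / k`-thin. (2) Trees whose removal keeps the edge
connectivity. (3) Real weights: a uniform distribution on thin trees with small marginals, and
cheap thin trees. (4) The factor `2` is sharp. -/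
theorem result : ∃ C : ℝ, C ≤ 10 ^ 94 ∧
    (∀ ε : ℝ, 0 < ε → ε ≤ 1 → ∀ (V E : Type) [Fintype V] [DecidableEq V]
      [Fintype E] [DecidableEq E] (ends : E → Sym2 V), 2 ≤ Fintype.card V →
      (∀ k b : ℕ, 1 ≤ k → (2 + ε) * b ≤ k → (EdgeConnected ends k ∨
        ∀ π : V → ℕ, (k : ℝ) / 2 * (((univ.image π).card : ℝ) - 1) ≤
          (univ.filter fun e => ¬ ((ends e).map π).IsDiag).card) →
        ∃ T : Fin b → Finset E, (∀ i, IsSpanningTree ends (T i)) ∧
          (Pairwise fun i j => Disjoint (T i) (T j)) ∧ ∀ (s j : ℕ) (S : Finset V),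
          ((cut ends ((univ.filter fun i : Fin b => s ≤ i ∧ i < s + j).biUnion T) S).card : ℝ) ≤
            ((2 + ε) * j + C / ε ^ 12) / k * (cut ends univ S).card) ∧
      (∀ k a b : ℕ, EdgeConnected ends k → a + (2 + ε) * b + C / ε ^ 12 ≤ k →
        ∃ T : Fin b → Finset E, (∀ i, IsSpanningTree ends (T i)) ∧
          (Pairwise fun i j => Disjoint (T i) (T j)) ∧ ∀ S : Finset V, S.Nonempty → S ≠ univ →
          a ≤ (cut ends (univ.biUnion T)ᶜ S).card) ∧
      ∀ (k : ℝ) (x : E → ℝ), 0 < k → (∀ e, 0 ≤ x e) →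
        ((∀ S : Finset V, S.Nonempty → S ≠ univ → k ≤ ∑ e ∈ cut ends univ S, x e) ∨
          ∀ π : V → ℕ, k / 2 * (((univ.image π).card : ℝ) - 1) ≤
            ∑ e ∈ univ.filter fun e => ¬ ((ends e).map π).IsDiag, x e) →
        ∃ (N : ℕ) (T : Fin N → Finset E), 0 < N ∧
          (∀ i, IsSpanningTree ends (T i) ∧ ∀ S : Finset V,
            ((cut ends (T i) S).card : ℝ) ≤ C / ε ^ 12 / k * ∑ e ∈ cut ends univ S, x e) ∧
          (∀ e, ((univ.filter fun i => e ∈ T i).card : ℝ) / N ≤ (2 + ε) / k * x e) ∧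
          ∀ c : E → ℝ, (∀ e, 0 ≤ c e) →
            ∃ i, ∑ e ∈ T i, c e ≤ (2 + ε) / k * ∑ e, c e * x e) ∧
    ∀ k : ℕ, 1 ≤ k → ∃ (E : Type) (_ : Fintype E) (_ : DecidableEq E)
      (ends : E → Sym2 (Fin (k + 1))), (∀ e, ¬ (ends e).IsDiag) ∧ EdgeConnected ends k ∧
      ∀ (b : ℕ) (T : Fin b → Finset E), (∀ i, IsSpanningTree ends (T i)) →
        (Pairwise fun i j => Disjoint (T i) (T j)) → ∃ S : Finset (Fin (k + 1)), S.Nonempty ∧
          S ≠ univ ∧
          2 * b * (cut ends univ S).card ≤ (k + 1) * (cut ends (univ.biUnion T) S).card := by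
  refine ⟨10 ^ 94, le_rfl, fun ε hε hε1 V E _ _ _ _ ends hV => ?_, fun k hk => N061.sharp hk⟩
  have : Nonempty V := Fintype.card_pos_iff.1 (by omega)
  have hC : (10 : ℝ) ^ 90 / ε ^ 12 ≤ 10 ^ 94 / ε ^ 12 := by gcongr <;> norm_num
  refine ⟨fun k b hk hb h => ?_, fun k a b h hk => N061.remove ends hε hε1 h (by linarith),
    fun k x hk hx h => N061.frac ends hε hε1 hk x hx h⟩
  obtain ⟨T, h1, h2, h3⟩ := N061.packing ends hε hε1 (k := k) (by exact_mod_cast hk)
    (h.imp_left fun h S a c => by exact_mod_cast h S a c) hb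
  exact ⟨T, h1, h2, fun s j S => (h3 s j S).trans (by gcongr)⟩

end Vale.Agent.Results.P061.A0Packing
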